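import Vale.Agent.P275CP.Top
import Vale.Agent.P275GC.Pu

/-!
P275 (helper24): changes of frames, limits of Higgs bundles, compactness under `C¹` bounds.
-/

set_option linter.all false

open scoped Matrix.Norms.Operator Topology ComplexOrder ContDiff ComplexConjugate
open Filter Set Matrix Complex Metric MeasureTheory
open Vale.Agent.P281Z.Hm (wd wb Mx an_mul an_inv)
open Vale.Agent.P275GC Vale.Agent.P275NA Vale.Agent.P275HK

noncomputable section

namespace Vale.Agent.P275CP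

variable {C : Type} [TopologicalSpace C] {B : At C} {n : ℕ}

theorem met_of {g : Cy B (Mn n)} {h : Fm B (Mn n)} (H : B.MtM ∞ g h) (i : Fin B.N) {z : ℂ}
    (hz : z ∈ ball (0 : ℂ) B.R) : MetAt (h i) z :=
  ⟨(H.sm.at hz i).of_le (WithTop.coe_le_coe.2 (le_top (a := (2 : ℕ∞)))),
    eventually_of_mem (isOpen_ball.mem_nhds hz) (H.pos i)⟩

theorem cc_lim {gs : ℕ → Cy B (Mn n)} {g : Cy B (Mn n)} (h : ∀ k, B.Cc (gs k)) (cg : CvC B gs g) :
    B.Cc g where
  hol i j := (cg i j).differentiableOn (.of_forall fun k => (h k).hol i j) (At.O_open i j)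
  one i z hz := tendsto_nhds_unique ((cg i i).tendsto_at (At.O_self hz))
    (tendsto_const_nhds.congr fun k => ((h k).one i z hz).symm)
  mul i j k z a b := tendsto_nhds_unique ((cg i k).tendsto_at b) ((((cg i j).tendsto_at a).mul
    ((cg j k).tendsto_at (At.tr_O a b))).congr fun q => ((h q).mul i j k z a b).symm)

/-- limits of Higgs bundles -/
theorem hig_lim {ls : ℕ → Cy B ℂ} {l : Cy B ℂ} {gs : ℕ → Cy B (Mn n)} {g : Cy B (Mn n)}
    {as : ℕ → Fm B (Mn n)} {a : Fm B (Mn n)} (h : ∀ k, Hig B (ls k) (gs k) (as k))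
    (cl : CvC B ls l) (cg : CvC B gs g) (ca : CvF B as a) : Hig B l g a where
  cc := cc_lim (fun k => (h k).cc) cg
  hol i := (ca i).differentiableOn (.of_forall fun k => (h k).hol i) isOpen_ball
  tr i j z hz := tendsto_nhds_unique ((((ca i).tendsto_at hz.1).mul ((cg i j).tendsto_at hz)).congr
    fun k => (h k).tr i j z hz) (((cl i j).tendsto_at hz).smul (((cg i j).tendsto_at hz).mul
      ((ca j).tendsto_at (At.tr_ball hz))))

theorem Hig.res {l : Cy B ℂ} {g : Cy B (Mn n)} {a : Fm B (Mn n)} (h : Hig B l g a) {r : ℝ}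
    (h1 : 1 < r) (h2 : r ≤ B.R) : Hig (B.res r h1 h2) l g a :=
  ⟨h.cc.res, h.hol.res, fun i j z hz => h.tr i j z (At.res_O.1 hz).1⟩

section fr

variable {Φ : Fm B (Mn n)} {g : Cy B (Mn n)} {a h : Fm B (Mn n)}

theorem cc_fr (hg : B.Cc g) (hΦ : B.Hl Φ) (ne : ∀ i, ∀ z ∈ ball (0 : ℂ) B.R, (Φ i z).det ≠ 0) :
    B.Cc (fc B Φ g) where
  hol i j z hz := (an_mul (an_mul (an_inv (hΦ.an hz.1 i) (ne i z hz.1)) (hg.an hz))
    ((hΦ.an (At.tr_ball hz) j).comp (At.an_tr hz))).differentiableAt.differentiableWithinAt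
  one i z hz := by
    rw [fc, hg.one i z hz, At.tr_self hz, Matrix.mul_one, nonsing_inv_mul _ (Ne.isUnit (ne i z hz))]
  mul i j k z x y := by
    simp only [fc, hg.mul i j k z x y, At.tr_tr x, Matrix.mul_assoc,
      mul_nonsing_inv_cancel_left _ _ (Ne.isUnit (ne j _ (At.tr_ball x)))]

theorem hig_fr {l : Cy B ℂ} (H : Hig B l g a) (hΦ : B.Hl Φ)
    (ne : ∀ i, ∀ z ∈ ball (0 : ℂ) B.R, (Φ i z).det ≠ 0) : Hig B l (fc B Φ g) (fe B Φ a) where
  cc := cc_fr H.cc hΦ ne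
  hol i z hz := (an_mul (an_mul (an_inv (hΦ.an hz i) (ne i z hz)) (H.hol.an hz i))
    (hΦ.an hz i)).differentiableAt.differentiableWithinAt
  tr i j z hz := by
    simp only [fc, fe, Matrix.mul_assoc, mul_nonsing_inv_cancel_left _ _ (Ne.isUnit (ne i z hz.1)),
      mul_nonsing_inv_cancel_left _ _ (Ne.isUnit (ne j _ (At.tr_ball hz)))]
    rw [← Matrix.mul_assoc (a i z), H.tr i j z hz, Matrix.smul_mul, Matrix.mul_smul,
      Matrix.mul_assoc]

theorem mt_fr {k : WithTop ℕ∞} (H : B.MtM k g h) (hΦ : B.Hl Φ)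
    (ne : ∀ i, ∀ z ∈ ball (0 : ℂ) B.R, (Φ i z).det ≠ 0) : B.MtM k (fc B Φ g) (fm B Φ h) where
  sm i z hz := (cd_mul (cd_mul (cd_ct (hol_cd (hΦ.an hz i))) (H.sm.at hz i))
    (hol_cd (hΦ.an hz i))).contDiffWithinAt
  pos i z hz := (H.pos i z hz).conjTranspose_mul_mul_same (inj_of_det (ne i z hz))
  tr i j z hz := by
    simp only [fc, fm, H.tr i j z hz, conjTranspose_mul, conjTranspose_nonsing_inv,
      Matrix.mul_assoc, mul_nonsing_inv_cancel_left _ _ (Ne.isUnit (ne i z hz.1)),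
      nonsing_inv_mul_cancel_left _ _ (ct_det (ne i z hz.1))]

theorem hk_fr (w : Fm B ℝ) {i : Fin B.N} {z : ℂ} (H : MetAt (h i) z) (hΦ : AnalyticAt ℂ (Φ i) z)
    (ne : (Φ i z).det ≠ 0) : HK B w (fe B Φ a) (fm B Φ h) i z = fe B Φ (HK B w a h) i z := by
  show cv (fun x => (Φ i x)ᴴ * h i x * Φ i x) z + br ((Φ i z)ᴴ * h i z * Φ i z)
    (_ • ((Φ i z)⁻¹ * a i z * Φ i z)) = (Φ i z)⁻¹ * (cv (h i) z + br (h i z) (_ • a i z)) * Φ i z
  rw [cv_frame H hΦ ne, ← Matrix.smul_mul, ← Matrix.mul_smul, br_frame ne, Matrix.mul_add,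
    Matrix.add_mul]

end fr

/-- compactness under bounds of the metric, the connection and the Higgs field -/
theorem core (G : REG) {ls : ℕ → Cy B ℂ} {l : Cy B ℂ} {ws : ℕ → Fm B ℝ} {w : Fm B ℝ}
    {gs : ℕ → Cy B (Mn n)} {as hs : ℕ → Fm B (Mn n)} {c C' K : ℝ} (hc : 0 < c)
    (h1 : ∀ k, Hig B (ls k) (gs k) (as k) ∧ B.MtM ∞ (gs k) (hs k)) (cl : CvC B ls l)
    (cw : CvF B ws w) (sw : B.Sm ∞ w) (pw : ∀ i, ∀ z ∈ ball (0 : ℂ) B.R, 0 < w i z)
    (bd : ∀ k i, ∀ z ∈ ball (0 : ℂ) B.R, Btw c C' (hs k i z) ∧ ‖as k i z‖ ≤ K ∧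
      ‖cn (hs k i) z‖ ≤ K ∧ ∀ y ∈ ball (0 : ℂ) B.R,
        ‖cn (hs k i) y - cn (hs k i) z‖ ≤ K * √‖y - z‖) :
    ∃ (σ : ℕ → ℕ) (g : Cy B (Mn n)) (a h : Fm B (Mn n)), StrictMono σ ∧ Hig B l g a ∧
      B.MtM 1 g h ∧ CvF B (fun k => hs (σ k)) h ∧
      CvF B (fun k i => cn (hs (σ k) i)) (fun i => cn (h i)) ∧ CvF B (fun k => as (σ k)) a ∧
      CvC B (fun k => gs (σ k)) g ∧ ∀ Γ : Fin B.N → ℂ × Mn n → Mn n,
        (∀ i, ∀ z ∈ ball (0 : ℂ) B.R, ContDiffAt ℝ ∞ (Γ i) (z, h i z)) →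
        CvF B (fun k => HK B (ws (σ k)) (as (σ k)) (hs (σ k))) (fun i z => Γ i (z, h i z)) →
        B.MtM ∞ g h ∧ ∀ i, ∀ z ∈ ball (0 : ℂ) B.R, HK B w a h i z = Γ i (z, h i z) := by
  have : ProperSpace (Mn n) := FiniteDimensional.proper ℂ _
  obtain ⟨L, hL⟩ := lip (Fin n) hc C' K
  obtain ⟨K1, -, hK1⟩ := (nrm (Fin n) (Fin n)).1 c C' hc
  have me : ∀ k i, ∀ z ∈ ball (0 : ℂ) B.R, MetAt (hs k i) z := fun k i z hz =>
    met_of (h1 k).2 i hz
  obtain ⟨σ, f, hσ, hf⟩ := pc_fin (ι := Fin B.N ⊕ Fin B.N ⊕ Fin B.N ⊕ Fin B.N × Fin B.N)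
    (F := Sum.elim (fun i k => hs k i) (Sum.elim (fun i k => cn (hs k i))
      (Sum.elim (fun i k => as k i) fun p k => gs k p.1 p.2)))
    (U := Sum.elim (fun _ => ball 0 B.R) (Sum.elim (fun _ => ball 0 B.R)
      (Sum.elim (fun _ => ball 0 B.R) fun p => B.O p.1 p.2))) (by
    rintro (i | i | i | ⟨i, j⟩)
    · exact pc_mod (w := fun t => L * t) (by fun_prop) (mul_zero _) fun k =>
        hL _ _ fun z hz => ⟨me k i z hz, (bd k i z hz).1, (bd k i z hz).2.2.1⟩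
    · exact pc_mod (w := fun t => K * √t) (by fun_prop) (by simp) fun k z hz => (bd k i z hz).2.2
    · exact pc_hol isOpen_ball fun k => ⟨(h1 k).1.hol i, fun z hz => (bd k i z hz).2.1⟩
    · refine pc_hol (M := √(K1 * n)) (At.O_open i j) fun k => ⟨(h1 k).1.cc.hol i j, fun z hz =>
        Real.le_sqrt_of_sq_le ?_⟩
      have b := (bd k j _ (At.tr_ball hz)).1
      have := (hK1 _ _ (gs k i j z) b (bd k i z hz.1).1).1
      rw [(h1 k).2.tr i j z hz] at b this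
      rwa [nq, ad_gram (Btw.pd hc b), trace_one, Fintype.card_fin, natCast_re] at this)
  set h : Fm B (Mn n) := fun i => f (.inl i)
  set γ : Fm B (Mn n) := fun i => f (.inr (.inl i))
  set a : Fm B (Mn n) := fun i => f (.inr (.inr (.inl i)))
  set g : Cy B (Mn n) := fun i j => f (.inr (.inr (.inr (i, j))))
  have ch : CvF B (fun k => hs (σ k)) h := fun i => hf (.inl i)
  have cγ : CvF B (fun k i => cn (hs (σ k) i)) γ := fun i => hf (.inr (.inl i))
  have ca : CvF B (fun k => as (σ k)) a := fun i => hf (.inr (.inr (.inl i)))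
  have cg : CvC B (fun k => gs (σ k)) g := fun i j => hf (.inr (.inr (.inr (i, j))))
  clear_value h γ a g
  have hg : Hig B l g a := hig_lim (fun k => (h1 (σ k)).1) (fun i j => tl_sub (cl i j) hσ) cg ca
  have c1 : ∀ k i, ContDiffOn ℝ 1 (cn (hs k i)) (ball 0 B.R) := fun k i z hz =>
    (cd_cn (me k i z hz)).contDiffWithinAt
  have th : B.Ct h := fun i => (ch i).continuousOn (.of_forall fun k => (h1 (σ k)).2.sm.ct i)
  have tγ : B.Ct γ := fun i => (cγ i).continuousOn (.of_forall fun k => (c1 (σ k) i).continuousOn)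
  have pd : ∀ i, ∀ z ∈ ball (0 : ℂ) B.R, (h i z).PosDef := fun i z hz => Btw.pd hc
    ((closed_btw c C').mem_of_tendsto ((ch i).tendsto_at hz)
      (.of_forall fun k => (bd (σ k) i z hz).1))
  have d1 : ∀ i, ContDiffOn ℝ 1 (h i) (ball 0 B.R) ∧ ∀ z ∈ ball (0 : ℂ) B.R,
      dz (h i) z = h i z * γ i z ∧ db (h i) z = (h i z * γ i z)ᴴ := fun i =>
    P275CT.lim_c1 isOpen_ball (fun k => ((h1 (σ k)).2.sm i).of_le (by exact_mod_cast le_top))
      (fun z hz => (ch i).tendsto_at hz)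
      ((tl_map2 (fun p => p.1 * p.2) (ch i) (th i) (cγ i) (tγ i) fun _ _ =>
        continuous_mul.continuousAt).congr fun k z hz => (dz_cn (MetAt.pd (me _ i z hz))).symm)
      ((tl_map2 (fun p => (p.1 * p.2)ᴴ) (ch i) (th i) (cγ i) (tγ i) fun _ _ =>
        (cont_ct.comp continuous_mul).continuousAt).congr fun k z hz => by
          show (hs (σ k) i z * cn (hs (σ k) i) z)ᴴ = _
          rw [← dz_cn (MetAt.pd (me _ i z hz)), ct_dz (MetAt.df (me _ i z hz)) (me _ i z hz).pos])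
  have eγ : ∀ i, EqOn (γ i) (cn (h i)) (ball 0 B.R) := fun i z hz => by
    rw [cn, ((d1 i).2 z hz).1, nonsing_inv_mul_cancel_left _ _ (pd_det (pd i z hz))]
  have cc : CvF B (fun k i => cn (hs (σ k) i)) fun i => cn (h i) := fun i =>
    (cγ i).congr_right (eγ i)
  have tr : ∀ i j, ∀ z ∈ B.O i j, h j (B.tr i j z) = (g i j z)ᴴ * h i z * g i j z :=
    fun i j z hz => tendsto_nhds_unique (((ch j).tendsto_at (At.tr_ball hz)).congr fun k =>
      (h1 (σ k)).2.tr i j z hz) ((((cont_ct.tendsto _).comp ((cg i j).tendsto_at hz)).mul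
        ((ch i).tendsto_at hz.1)).mul ((cg i j).tendsto_at hz))
  refine ⟨σ, g, a, h, hσ, hg, ⟨fun i => (d1 i).1, pd, tr⟩, ch, cc, ca, cg, fun Γ hΓ cΓ => ?_⟩
  have sb : ∀ i, ∀ z ∈ ball (0 : ℂ) B.R, ContDiffAt ℝ ∞ (sa B w a i) z := fun i z hz =>
    P275CT.cda_smul (P275HK.cd_ofReal ((sw.at hz i).sqrt (pw i z hz).ne')) (hol_cd (hg.hol.an hz i))
  have R : ∀ i, ContDiffOn ℝ ∞ (h i) (ball 0 B.R) ∧ ∀ z ∈ ball (0 : ℂ) B.R,
      cv (h i) z = Γ i (z, h i z) - br (h i z) (sa B w a i z) := fun i => by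
    refine G (Fin n) _ (h i) (fun p => Γ i p - br p.2 (sa B w a i p.1)) isOpen_ball (d1 i).1 (pd i)
      (fun z hz => (hΓ i z hz).sub (cd_br contDiffAt_snd (pd_ne (pd i z hz))
        ((sb i z hz).comp (z, h i z) contDiffAt_fst))) ?_
    have tb : ContinuousOn (sa B w a i) (ball 0 B.R) := fun z hz =>
      (sb i z hz).continuousAt.continuousWithinAt
    have cb : TendstoLocallyUniformlyOn (fun k => sa B (ws (σ k)) (as (σ k)) i) (sa B w a i) atTop
        (ball 0 B.R) := tl_map2 (fun p : ℝ × Mn n => ((√p.1 : ℝ) : ℂ) • p.2) (tl_sub (cw i) hσ)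
      (sw.ct i) (ca i) (hg.hol i).continuousOn fun _ _ => by fun_prop
    have cr := tl_map2 (fun p : Mn n × Mn n => br p.1 p.2) (ch i) (th i) cb tb fun z hz =>
      (cd_br (N := 0) contDiffAt_fst (pd_ne (pd i z hz)) contDiffAt_snd).continuousAt
    refine P275CT.wk_lim isOpen_ball (fun k => (c1 (σ k) i).continuousOn)
      (fun k => P275CT.db_contOn isOpen_ball (c1 (σ k) i))
      (fun k => P275CT.wk_db isOpen_ball (c1 (σ k) i)) (cc i)
      (((cΓ i).sub cr).neg.congr fun k z hz => ?_)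
    simp [HK, hk, cv]
  exact ⟨⟨fun i => (R i).1, pd, tr⟩, fun i z hz => by rw [HK, hk, (R i).2 z hz, sub_add_cancel]⟩

end Vale.Agent.P275CP
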