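import Vale.Agent.P275CP.Core
import Vale.Agent.P275TR.Wmf
import Vale.Agent.P275CT.Grad
import Vale.Agent.P275CT.Reg

/-!
P275 (helper24): Simpson's bound and the block `CPT`.
-/

set_option linter.all false

open scoped Matrix.Norms.Operator Topology ComplexOrder ContDiff ComplexConjugate
open Filter Set Matrix Complex Metric MeasureTheory
open Vale.Agent.P281Z.Hm (wd wb Mx an_mul an_inv)
open Vale.Agent.P275GC Vale.Agent.P275NA Vale.Agent.P275HK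

noncomputable section

namespace Vale.Agent.P275CP

variable {C : Type} [TopologicalSpace C] {A : At C} {n : ℕ}

theorem one_bd {u : Fm A ℝ} (c : A.Ct u) (p : ∀ i, ∀ z ∈ ball (0 : ℂ) A.R, 0 < u i z) {r : ℝ}
    (hr : r < A.R) : ∃ S, 0 < S ∧ ∀ i z, ‖z‖ ≤ r → u i z ≤ S ∧ (u i z)⁻¹ ≤ S := by
  obtain ⟨M, -, a⟩ := c.bdd hr
  obtain ⟨m, m0, b⟩ := c.low p hr
  exact ⟨max M m⁻¹, lt_max_of_lt_right (inv_pos.2 m0), fun i z hz =>
    ⟨((le_abs_self _).trans (a i z hz)).trans (le_max_left _ _),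
      (inv_anti₀ m0 (b i z hz)).trans (le_max_right _ _)⟩⟩

/-- uniform two sided bounds for a convergent sequence of positive families -/
theorem fam_bd {us : ℕ → Fm A ℝ} {u : Fm A ℝ} (c1 : ∀ k, A.Ct (us k))
    (p1 : ∀ k i, ∀ z ∈ ball (0 : ℂ) A.R, 0 < us k i z) (c2 : A.Ct u)
    (p2 : ∀ i, ∀ z ∈ ball (0 : ℂ) A.R, 0 < u i z) (cv : CvF A us u) {r : ℝ} (hr : r < A.R) :
    ∃ S, ∀ k i z, ‖z‖ ≤ r → us k i z ≤ S ∧ (us k i z)⁻¹ ≤ S := by
  refine bd_all (P := fun k S => ∀ i z, ‖z‖ ≤ r → us k i z ≤ S ∧ (us k i z)⁻¹ ≤ S)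
    (fun k c c' h a i z hz => ⟨(a i z hz).1.trans h, (a i z hz).2.trans h⟩)
    (fun k => (one_bd (c1 k) (p1 k) hr).imp fun _ h => h.2) ?_
  obtain ⟨S, S0, a⟩ := one_bd c2 p2 hr
  have b : ∀ i, ∀ᶠ k in atTop, ∀ z ∈ closedBall (0 : ℂ) r, dist (u i z) (us k i z) < S⁻¹ / 2 :=
    fun i => Metric.tendstoUniformlyOn_iff.1
      ((tendstoLocallyUniformlyOn_iff_tendstoUniformlyOn_of_compact (isCompact_closedBall 0 r)).1
        ((cv i).mono (closedBall_subset_ball hr))) _ (by positivity)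
  refine ⟨max (S + S⁻¹ / 2) (S⁻¹ / 2)⁻¹, (eventually_all.2 b).mono fun k hk i z hz => ?_⟩
  have d := abs_lt.1 (Real.dist_eq _ _ ▸ hk i z (mem_closedBall_zero_iff.2 hz))
  have e := inv_le_of_inv_le₀ (p2 i z (mem_ball_zero_iff.2 (hz.trans_lt hr))) (a i z hz).2
  exact ⟨le_max_of_le_left (by linarith [(a i z hz).1]),
    le_max_of_le_right (inv_anti₀ (by positivity) (by linarith))⟩

theorem nq_sa (w : Fm A ℝ) (a : Fm A (Mn n)) (h : Mn n) {i : Fin A.N} {z : ℂ} (p : 0 ≤ w i z) :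
    nq h h (sa A w a i z) = w i z * nq h h (a i z) := by
  rw [sa, nq_smul, norm_real, Real.norm_eq_abs, sq_abs, Real.sq_sqrt p]

variable [T2Space C]

/-- the norm of the Higgs field is a function -/
theorem fn_s {l : Cy A ℂ} {w : Fm A ℝ} {g : Cy A (Mn n)} {a h : Fm A (Mn n)} {k : WithTop ℕ∞}
    (T : Tw A l w) (H : Hig A l g a) (m : A.MtM k g h) :
    A.Fn fun i z => w i z / A.ρ i z * nq (h i z) (h i z) (a i z) := by
  intro i j z hz
  have g0 := H.cc.det_ne hz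
  have l0 := T.cc.ne hz
  have e : a j (A.tr i j z) = (l i j z)⁻¹ • ((g i j z)⁻¹ * a i z * g i j z) := by
    rw [Matrix.mul_assoc, H.tr i j z hz, Matrix.mul_smul, smul_smul, inv_mul_cancel₀ l0, one_smul,
      nonsing_inv_mul_cancel_left _ _ (Ne.isUnit g0)]
  have t := T.tr i j z hz
  have p := (At.ρ_pos (i := j) (At.tr_ball hz)).ne'
  have d0 := (normSq_pos.2 (At.d_ne hz)).ne'
  have l1 := (normSq_pos.2 l0).ne'
  show w i z / A.ρ i z * nq _ _ _ = w j _ / A.ρ j _ * nq _ _ _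
  rw [e, m.tr i j z hz, nq_smul, nq_frame g0 g0, At.dn_ρ i j z hz, norm_inv, inv_pow,
    ← normSq_eq_norm_sq, smul_eq_mul, eq_div_of_mul_eq l1 t]
  field_simp

theorem cd_s {l : Cy A ℂ} {w : Fm A ℝ} (T : Tw A l w) (i : Fin A.N) {z : ℂ}
    (hz : z ∈ ball (0 : ℂ) A.R) : ContDiffAt ℝ ∞ (fun x => w i x / A.ρ i x) z :=
  (T.sm.at hz i).div (At.sm_ρ.at hz i) (At.ρ_pos hz).ne'

theorem two_le : (2 : WithTop ℕ∞) ≤ ∞ := WithTop.coe_le_coe.2 (le_top (a := (2 : ℕ∞)))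

theorem ct_lp {u : Fm A ℝ} (h : A.Sm ∞ u) (p : ∀ i, ∀ z ∈ ball (0 : ℂ) A.R, 0 < u i z) :
    A.Ct fun i => lp fun x => Real.log (u i x) := fun i z hz =>
  (continuous_re.continuousAt.comp (cd_db (N := 0) (cd_dz (by
    rw [zero_add, one_add_one_eq_two]
    exact P275HK.cd_ofReal (((h.at hz i).of_le two_le).log (p i z hz).ne')))).continuousAt
      ).continuousWithinAt

section seq

variable {ls : ℕ → Cy A ℂ} {ws : ℕ → Fm A ℝ} {l : Cy A ℂ} {w : Fm A ℝ}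
  {gs : ℕ → Cy A (Mn n)} {as hs : ℕ → Fm A (Mn n)} {M : ℝ}

theorem s_bd (T : CvT A ls ws l w) {r : ℝ} (hr : r < A.R) : ∃ S, ∀ k i z, ‖z‖ ≤ r →
    ws k i z / A.ρ i z ≤ S ∧ (ws k i z / A.ρ i z)⁻¹ ≤ S := by
  obtain ⟨S, a⟩ := fam_bd (fun k => (T.tw k).sm.ct) (fun k => (T.tw k).pos) T.lim.sm.ct T.lim.pos
    T.cw hr
  obtain ⟨S', -, b⟩ := one_bd (At.sm_ρ (A := A)).ct (fun i z hz => At.ρ_pos hz) hr
  refine ⟨S * S', fun k i z hz => ?_⟩
  have h := mem_ball_zero_iff.2 (hz.trans_lt hr)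
  have p := (T.tw k).pos i z h
  have q := At.ρ_pos (i := i) h
  rw [div_eq_mul_inv, mul_inv, inv_inv]
  exact ⟨mul_le_mul (a k i z hz).1 (b i z hz).2 (by positivity) (p.le.trans (a k i z hz).1),
    mul_le_mul (a k i z hz).2 (b i z hz).1 q.le (p.le.trans (a k i z hz).1)⟩

/-- **Simpson's bound** -/
theorem simpson (T : CvT A ls ws l w)
    (h1 : ∀ k, Hig A (ls k) (gs k) (as k) ∧ A.MtM ∞ (gs k) (hs k))
    (h2 : ∀ k i, ∀ z ∈ ball (0 : ℂ) A.R,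
      nq (hs k i z) (hs k i z) (HK A (ws k) (as k) (hs k) i z) ≤ (M * A.ρ i z) ^ 2)
    (h3 : ∀ k i, ∀ z ∈ ball (0 : ℂ) 1, ∀ q, ‖(as k i z).charpoly.coeff q‖ ≤ M) :
    ∃ B, ∀ k i, ∀ z ∈ ball (0 : ℂ) A.R,
      ws k i z / A.ρ i z * nq (hs k i z) (hs k i z) (as k i z) ≤ B := by
  obtain ⟨S, hS⟩ := s_bd T A.hR
  obtain ⟨S', S0, hS'⟩ := one_bd (At.sm_ρ (A := A)).ct (fun i z hz => At.ρ_pos hz) A.hR
  obtain ⟨M1, hM1⟩ := T.bd
  obtain ⟨M2, -, hM2⟩ := (ct_lp (At.sm_ρ (A := A)) fun i z hz => At.ρ_pos hz).bdd A.hR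
  obtain ⟨R, hR⟩ := alg (Fin n) (max M ((2 * |M| + (M1 + M2) * S') * S))
  refine ⟨S * R, fun k i z hz => ?_⟩
  have : Nonempty C := ⟨(A.e i).symm z⟩
  obtain ⟨j, y, y1, hm, hy⟩ := (fn_s (T.tw k) (h1 k).1 (h1 k).2).exists_max fun i z hz =>
    ((cd_s (T.tw k) i hz).mul (cd_nq ((h1 k).2.sm.at hz i) (pd_ne ((h1 k).2.pos i z hz))
      ((h1 k).2.sm.at hz i) (hol_cd ((h1 k).1.hol.an hz i)))).continuousAt.continuousWithinAt
  refine (hy i z hz).trans ?_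
  have yR : y ∈ ball (0 : ℂ) A.R := At.mem_of_le y1.le
  have p := (T.tw k).pos j y yR
  have q := At.ρ_pos (i := j) yR
  have ph := (h1 k).2.pos j y yR
  have b1 := abs_le.1 (hM1 k j y (mem_ball_zero_iff.2 y1))
  have b2 := abs_le.1 (hM2 j y y1.le)
  have m0 : 0 ≤ M1 + M2 := by linarith
  have L : -((M1 + M2) * S' * A.ρ j y) ≤ lp (fun x => Real.log (ws k j x / A.ρ j x)) y := by
    rw [lp_congr (v := fun x => Real.log (ws k j x) - Real.log (A.ρ j x))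
      (eventually_of_mem (isOpen_ball.mem_nhds yR) fun x hx =>
        Real.log_div ((T.tw k).pos j x hx).ne' (At.ρ_pos hx).ne'),
      lp_sub ((((T.tw k).sm.at yR j).of_le two_le).log p.ne')
        (((At.sm_ρ.at yR j).of_le two_le).log q.ne')]
    have := mul_le_mul_of_nonneg_left ((inv_le_iff_one_le_mul₀ q).1 (hS' j y y1.le).2) m0
    linarith
  have e := simp_max (b := sa A (ws k) (as k) j) (c := ((√(ws k j y) : ℝ) : ℂ)) (M := |M|)
    (met_of (h1 k).2 j yR) ((h1 k).1.hol.an yR j) ((cd_s (T.tw k) j yR).of_le two_le) (div_pos p q)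
    q (abs_nonneg M) hm rfl (by
      rw [norm_real, Real.norm_eq_abs, sq_abs, Real.sq_sqrt p.le, div_mul_cancel₀ _ q.ne'])
    (by rw [mul_pow, sq_abs, ← mul_pow]; exact h2 k j y yR) L
  obtain ⟨s1, s2⟩ := hS k j y y1.le
  have p0 := div_pos p q
  generalize ws k j y / A.ρ j y = s at e s1 s2 p0
  have n0 := nq_nonneg ph ph (as k j y)
  refine mul_le_mul s1 (hR _ _ ph (fun t => (h3 k j y (mem_ball_zero_iff.2 y1) t).trans
    (le_max_left _ _)) ?_) n0 (p0.le.trans s1)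
  refine le_trans ?_ (mul_le_mul_of_nonneg_right (le_max_right _ _) n0)
  refine le_trans ?_ (mul_le_mul_of_nonneg_right (mul_le_mul_of_nonneg_left s2
    (by positivity)) n0)
  refine le_of_mul_le_mul_left (e.trans_eq ?_) (by positivity)
  field_simp

end seq

/-- **compactness** -/
theorem cpt_of (A : At C) (G : GRAD) (G' : REG) : CPT A := by
  intro n ls ws l w gs as hs M T h1 h2 h3 r r1 r2
  obtain ⟨s, s1, s2⟩ := exists_between r2
  obtain ⟨B, hB⟩ := simpson T h1 h2 h3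
  obtain ⟨S, hS⟩ := s_bd T s2
  obtain ⟨S', S0, hS'⟩ := one_bd (At.sm_ρ (A := A)).ct (fun i z hz => At.ρ_pos hz) s2
  obtain ⟨c, C', hc, W⟩ := P275TR.wmf maxp homk nrm (Fin n) s
    √(2 * (M * S') ^ 2 + 2 * (4 * (S' * B) ^ 2)) (by linarith)
  obtain ⟨K1, K0, hK1⟩ := (nrm (Fin n) (Fin n)).1 c C' hc
  obtain ⟨K2, hK2⟩ := G (Fin n) r s c C' √(K1 * (2 * (M * S') ^ 2 + 2 * (4 * (S' * B) ^ 2)))
    (by linarith) s1 hc
  have sR : ∀ z : ℂ, ‖z‖ ≤ s → z ∈ ball (0 : ℂ) A.R := fun z hz =>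
    mem_ball_zero_iff.2 (hz.trans_lt s2)
  have cvb : ∀ k i z, ‖z‖ ≤ s → nq (hs k i z) (hs k i z) (cv (hs k i) z) ≤
      2 * (M * S') ^ 2 + 2 * (4 * (S' * B) ^ 2) := fun k i z hz => by
    have ph := (h1 k).2.pos i z (sR z hz)
    have q := At.ρ_pos (i := i) (sR z hz)
    have p := (T.tw k).pos i z (sR z hz)
    have e : cv (hs k i) z = HK A (ws k) (as k) (hs k) i z -
        br (hs k i z) (sa A (ws k) (as k) i z) := by simp [HK, hk]
    have b1 : nq (hs k i z) (hs k i z) (sa A (ws k) (as k) i z) ≤ S' * B := by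
      rw [nq_sa _ _ _ p.le]
      refine le_trans (le_of_eq ?_) (mul_le_mul (hS' i z hz).1 (hB k i z (sR z hz))
        (mul_nonneg (div_pos p q).le (nq_nonneg ph ph _)) S0.le)
      field_simp
    have b2 : (M * A.ρ i z) ^ 2 ≤ (M * S') ^ 2 := by
      rw [mul_pow, mul_pow]
      exact mul_le_mul_of_nonneg_left (pow_le_pow_left₀ q.le (hS' i z hz).1 2) (sq_nonneg M)
    rw [e]
    linarith [nq_sub ph ph (HK A (ws k) (as k) (hs k) i z) (br (hs k i z) (sa A (ws k) (as k) i z)),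
      nq_br_le ph _ b1, h2 k i z (sR z hz)]
  choose Φ Φ1 Φ2 using fun k i => W (hs k i) fun z hz =>
    ⟨met_of (h1 k).2 i (sR z (mem_closedBall_zero_iff.1 hz)), by
      rw [Real.sq_sqrt (by positivity)]; exact cvb k i z (mem_closedBall_zero_iff.1 hz)⟩
  have rs : ball (0 : ℂ) r ⊆ ball 0 s := ball_subset_ball s1.le
  have ns : ∀ z ∈ ball (0 : ℂ) s, ‖z‖ ≤ s := fun z hz => (mem_ball_zero_iff.1 hz).le
  have gr : ∀ k i, ∀ z ∈ ball (0 : ℂ) r, ∀ y ∈ ball (0 : ℂ) r, ‖cn (fm A (Φ k) (hs k) i) z‖ ≤ K2 ∧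
      ‖cn (fm A (Φ k) (hs k) i) z - cn (fm A (Φ k) (hs k) i) y‖ ≤ K2 * √‖z - y‖ := fun k i =>
    hK2 _ fun z hz => by
      have m := met_of (h1 k).2 i (sR z (ns z hz))
      obtain ⟨d, b⟩ := Φ2 k i z hz
      refine ⟨met_gram m (hol_cd (Φ1 k i z hz)) (inj_of_det d), b, Real.le_sqrt_of_sq_le ?_⟩
      show ‖cv (fun x => (Φ k i x)ᴴ * hs k i x * Φ k i x) z‖ ^ 2 ≤ _
      rw [cv_frame m (Φ1 k i z hz) d]
      refine (hK1 _ _ _ b b).1.trans (mul_le_mul_of_nonneg_left ?_ K0.le)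
      rw [nq_frame d d]
      exact cvb k i z (ns z hz)
  have hl : ∀ k, (A.res r r1 r2.le).Hl (Φ k) := fun k i => ((Φ1 k i).mono rs).differentiableOn
  have ne : ∀ k i, ∀ z ∈ ball (0 : ℂ) r, (Φ k i z).det ≠ 0 := fun k i z hz => (Φ2 k i z (rs hz)).1
  have rR : ball (0 : ℂ) r ⊆ ball 0 A.R := ball_subset_ball r2.le
  obtain ⟨σ, g, a, h, hσ, x1, x2, x3, x4, x5, x6, x7⟩ := core (B := A.res r r1 r2.le) G'
    (ls := ls) (l := l) (ws := ws) (w := w) (K := max K2 √(K1 * (S * B))) (C' := C')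
    (gs := fun k => fc (A.res r r1 r2.le) (Φ k) (gs k))
    (as := fun k => fe (A.res r r1 r2.le) (Φ k) (as k))
    (hs := fun k => fm (A.res r r1 r2.le) (Φ k) (hs k)) hc
    (fun k => ⟨hig_fr (Hig.res (h1 k).1 r1 r2.le) (hl k) (ne k), mt_fr (h1 k).2.res (hl k) (ne k)⟩)
    (fun i j => (T.cl i j).mono fun z hz => (At.res_O.1 hz).1) (fun i => (T.cw i).mono rR)
    T.lim.sm.res (fun i z hz => T.lim.pos i z (rR hz)) fun k i z hz => by
      obtain ⟨d, b⟩ := Φ2 k i z (rs hz)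
      refine ⟨b, le_max_of_le_right (Real.le_sqrt_of_sq_le ?_), le_max_of_le_left
        (gr k i z hz z hz).1, fun y hy => (gr k i y hy z hz).2.trans
          (mul_le_mul_of_nonneg_right (le_max_left _ _) (Real.sqrt_nonneg _))⟩
      refine (hK1 _ _ _ b b).1.trans (mul_le_mul_of_nonneg_left ?_ K0.le)
      have ph := (h1 k).2.pos i z (rR hz)
      have p := div_pos ((T.tw k).pos i z (rR hz)) (At.ρ_pos (A := A) (i := i) (rR hz))
      have t := (hS k i z (ns z (rs hz))).2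
      refine (nq_frame d d _ _ _).trans_le (le_trans (le_of_eq ?_) (mul_le_mul t (hB k i z (rR hz))
        (mul_nonneg p.le (nq_nonneg ph ph _)) ((inv_pos.2 p).le.trans t)))
      rw [inv_mul_cancel_left₀ p.ne']
  exact ⟨σ, fun k => Φ (σ k), g, a, h, hσ, x1, x2, ⟨fun k => hl (σ k), fun k => ne (σ k),
    ⟨c, C', hc, fun k i z hz => (Φ2 (σ k) i z (rs hz)).2⟩, x3, x4, x5, x6⟩, fun Γ y1 y2 =>
    x7 Γ y1 fun i => (y2 i).congr fun k z hz => (hk_fr (B := A.res r r1 r2.le) (ws (σ k))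
      (met_of (h1 (σ k)).2 i (rR hz)) (Φ1 (σ k) i z (rs hz)) (ne (σ k) i z hz)).symm⟩

theorem cpt (A : At C) : CPT A := cpt_of A P275CT.grad P275CT.reg

end Vale.Agent.P275CP
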