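import Vale.Agent.P275NA.Glob
import Vale.Agent.P275HK.Max
import Vale.Agent.P275KR.Main
import Vale.Agent.P275CT.Pot

/-!
P275 (helper24): locally uniform limits, joint subsequences, bounds from `Btw`.
-/

set_option linter.all false

open scoped Matrix.Norms.Operator Topology ComplexOrder ContDiff ComplexConjugate
open Filter Set Matrix Complex Metric MeasureTheory
open Vale.Agent.P281Z.Hm (wd wb Mx)
open Vale.Agent.P275NA Vale.Agent.P275HK

noncomputable section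

namespace Vale.Agent.P275CP

theorem seq_fin {ι : Type} [Finite ι] (P : ι → (ℕ → ℕ) → Prop)
    (h1 : ∀ i σ (τ : ℕ → ℕ), StrictMono τ → P i σ → P i (σ ∘ τ))
    (h2 : ∀ i σ, ∃ τ : ℕ → ℕ, StrictMono τ ∧ P i (σ ∘ τ)) :
    ∃ σ, StrictMono σ ∧ ∀ i, P i σ := by
  classical
  have := Fintype.ofFinite ι
  have a : ∀ s : Finset ι, ∃ σ, StrictMono σ ∧ ∀ i ∈ s, P i σ := fun s => by
    induction s using Finset.induction_on with
    | empty => exact ⟨id, strictMono_id, by simp⟩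
    | insert i s _ ih =>
      obtain ⟨σ, a, b⟩ := ih
      obtain ⟨τ, c, d⟩ := h2 i σ
      refine ⟨σ ∘ τ, a.comp c, fun j hj => ?_⟩
      rcases Finset.mem_insert.1 hj with rfl | hj
      · exact d
      · exact h1 j σ τ c (b j hj)
  obtain ⟨σ, a, b⟩ := a Finset.univ
  exact ⟨σ, a, fun i => b i (Finset.mem_univ i)⟩

/-- a bound for each index and an eventual bound give a uniform bound -/
theorem bd_all {P : ℕ → ℝ → Prop} (hm : ∀ k c c', c ≤ c' → P k c → P k c') (h1 : ∀ k, ∃ c, P k c)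
    (h2 : ∃ c, ∀ᶠ k in atTop, P k c) : ∃ c, ∀ k, P k c := by
  obtain ⟨c, hc⟩ := h2
  obtain ⟨N, hN⟩ := eventually_atTop.1 hc
  choose f hf using h1
  obtain ⟨B, hB⟩ := ((finite_lt_nat N).image f).bddAbove
  refine ⟨max c B, fun k => ?_⟩
  rcases lt_or_ge k N with h | h
  · exact hm k _ _ ((hB ⟨k, h, rfl⟩).trans (le_max_right _ _)) (hf k)
  · exact hm k _ _ (le_max_left _ _) (hN k h)

section tl

variable {X E G ι : Type} [TopologicalSpace X] [UniformSpace E] [UniformSpace G] {U : Set X}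

theorem tl_sub {F : ℕ → X → E} {f : X → E} (h : TendstoLocallyUniformlyOn F f atTop U) {σ : ℕ → ℕ}
    (hσ : StrictMono σ) : TendstoLocallyUniformlyOn (fun k => F (σ k)) f atTop U :=
  fun u hu x hx => let ⟨t, a, b⟩ := h u hu x hx; ⟨t, a, hσ.tendsto_atTop.eventually b⟩

theorem tl_map {l : Filter ι} {F : ι → X → E} {f : X → E} (φ : E → G)
    (hF : TendstoLocallyUniformlyOn F f l U) (hf : ContinuousOn f U)
    (hφ : ∀ x ∈ U, ContinuousAt φ (f x)) :
    TendstoLocallyUniformlyOn (fun k x => φ (F k x)) (fun x => φ (f x)) l U := by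
  rw [tendstoLocallyUniformlyOn_iff_forall_tendsto] at hF ⊢
  intro x hx
  have a : Tendsto (fun y : ι × X => f y.2) (l ×ˢ 𝓝[U] x) (𝓝 (f x)) :=
    (hf x hx).tendsto.comp tendsto_snd
  exact (((hφ x hx).tendsto.comp a).prodMk_nhds ((hφ x hx).tendsto.comp
    (a.congr_uniformity (hF x hx)))).mono_right (nhds_le_uniformity _)

theorem tl_map2 {E' : Type} [UniformSpace E'] {l : Filter ι} {F : ι → X → E} {f : X → E}
    {F' : ι → X → E'} {f' : X → E'} (φ : E × E' → G) (hF : TendstoLocallyUniformlyOn F f l U)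
    (hf : ContinuousOn f U) (hF' : TendstoLocallyUniformlyOn F' f' l U) (hf' : ContinuousOn f' U)
    (hφ : ∀ x ∈ U, ContinuousAt φ (f x, f' x)) :
    TendstoLocallyUniformlyOn (fun k x => φ (F k x, F' k x)) (fun x => φ (f x, f' x)) l U :=
  tl_map φ (hF.prodMk hF') (hf.prodMk hf') hφ

/-- every subsequence has a locally uniformly convergent subsequence -/
def Pc (F : ℕ → X → E) (U : Set X) : Prop := ∀ σ : ℕ → ℕ, ∃ τ : ℕ → ℕ, StrictMono τ ∧
  ∃ f, TendstoLocallyUniformlyOn (fun k => F (σ (τ k))) f atTop U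

theorem pc_fin [Finite ι] {F : ι → ℕ → X → E} {U : ι → Set X} (h : ∀ i, Pc (F i) (U i)) :
    ∃ (σ : ℕ → ℕ) (f : ι → X → E), StrictMono σ ∧
      ∀ i, TendstoLocallyUniformlyOn (fun k => F i (σ k)) (f i) atTop (U i) := by
  obtain ⟨σ, a, b⟩ := seq_fin
    (fun i σ => ∃ f, TendstoLocallyUniformlyOn (fun k => F i (σ k)) f atTop (U i))
    (fun i σ τ hτ ⟨f, hf⟩ => ⟨f, tl_sub hf hτ⟩) h
  choose f hf using b
  exact ⟨σ, f, a, hf⟩

end tl

section pc

variable {E : Type} [NormedAddCommGroup E] [ProperSpace E] {F : ℕ → ℂ → E} {U : Set ℂ}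

theorem pc_hol [NormedSpace ℂ E] (hU : IsOpen U) {M : ℝ}
    (h : ∀ k, DifferentiableOn ℂ (F k) U ∧ ∀ z ∈ U, ‖F k z‖ ≤ M) : Pc F U := fun σ => by
  obtain ⟨g, h1, -⟩ := P275KR.montel' (hyperfilter ℕ) (f := fun k => F (σ k)) hU
    (Eventually.of_forall fun j => h (σ j))
  obtain ⟨τ, s1, s2⟩ := P275KR.extract_loc Nat.hyperfilter_le_atTop h1
  exact ⟨τ, s1, g, s2⟩

theorem pc_mod {M : ℝ} {w : ℝ → ℝ} (hw : Continuous w) (h0 : w 0 = 0)
    (h : ∀ k, ∀ x ∈ U, ‖F k x‖ ≤ M ∧ ∀ y ∈ U, ‖F k y - F k x‖ ≤ w ‖y - x‖) : Pc F U := fun σ => by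
  obtain ⟨g, h1, -⟩ := P275KR.ascoli_mod (hyperfilter ℕ) (f := fun k => F (σ k)) (U := U) (C := M)
    ((hw.tendsto' 0 0 h0).mono_left nhdsWithin_le_nhds) (Eventually.of_forall fun j => by
      simpa only [dist_eq_norm] using h (σ j))
  obtain ⟨τ, s1, s2⟩ := P275KR.extract_loc Nat.hyperfilter_le_atTop h1
  exact ⟨τ, s1, g, s2⟩

end pc

variable {n : Type} [Fintype n] [DecidableEq n]

theorem cont_ct : Continuous fun X : Mx n => Xᴴ := continuous_id.matrix_conjTranspose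

theorem closed_psd : IsClosed {X : Mx n | X.PosSemidef} := by
  simp only [posSemidef_iff_dotProduct_mulVec, setOf_and, setOf_forall]
  exact (isClosed_eq cont_ct continuous_id).inter (isClosed_iInter fun x => isClosed_le
    continuous_const (continuous_const.dotProduct (continuous_id.matrix_mulVec continuous_const)))

theorem closed_btw (c C : ℝ) : IsClosed {X : Mx n | Btw c C X} :=
  (closed_psd.preimage (continuous_id.sub continuous_const)).inter
    (closed_psd.preimage (continuous_const.sub continuous_id))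

theorem btw_norm (n : Type) [Fintype n] [DecidableEq n] {c : ℝ} (hc : 0 < c) (C : ℝ) :
    ∃ L : ℝ, ∀ X : Mx n, Btw c C X → ‖X‖ ≤ L := by
  obtain ⟨K, hK, H⟩ := fs_norm (n := n) (m := n)
  refine ⟨√(K * ((C * Fintype.card n) * (C * Fintype.card n))), fun X hX => ?_⟩
  obtain ⟨P, hP, rfl⟩ := ex_sq (Btw.pd hc hX)
  have a := (btw_fs hc hP hX).1
  refine Real.le_sqrt_of_sq_le ((H _).1.trans (mul_le_mul_of_nonneg_left
    ((fs_mul _ _).trans ?_) hK.le))
  rw [fs_ct]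
  exact mul_le_mul a a (fs_nonneg _) ((fs_nonneg _).trans a)

theorem dz_cn {H : ℂ → Mx n} {z : ℂ} (p : (H z).PosDef) : dz H z = H z * cn H z := by
  rw [cn, mul_nonsing_inv_cancel_left _ _ (pd_det p)]

/-- Lipschitz bound from a bound of the connection -/
theorem lip (n : Type) [Fintype n] [DecidableEq n] {c : ℝ} (hc : 0 < c) (C K : ℝ) :
    ∃ L : ℝ, ∀ (r : ℝ) (H : ℂ → Mx n),
      (∀ z ∈ ball (0 : ℂ) r, MetAt H z ∧ Btw c C (H z) ∧ ‖cn H z‖ ≤ K) →
      ∀ x ∈ ball (0 : ℂ) r, ‖H x‖ ≤ L ∧ ∀ y ∈ ball (0 : ℂ) r, ‖H y - H x‖ ≤ L * ‖y - x‖ := by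
  obtain ⟨L, hL⟩ := btw_norm n hc C
  have : ProperSpace (Mx n × Mx n) := FiniteDimensional.proper ℂ _
  have c1 : Continuous fun p : Mx n × Mx n => P275CT.LL (p.1 * p.2, (p.1 * p.2)ᴴ) :=
    P275CT.LL.continuous.comp (continuous_mul.prodMk (cont_ct.comp continuous_mul))
  obtain ⟨B, hB⟩ := (isCompact_closedBall (0 : Mx n × Mx n) (max L K)).exists_bound_of_continuousOn
    c1.continuousOn
  refine ⟨max L B, fun r H h x hx => ⟨(hL _ (h x hx).2.1).trans (le_max_left _ _), fun y hy =>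
    (convex_ball (0 : ℂ) r).norm_image_sub_le_of_norm_fderiv_le (𝕜 := ℝ)
      (fun z hz => MetAt.df (h z hz).1) (fun z hz => ?_) hx hy⟩⟩
  obtain ⟨a, b, d⟩ := h z hz
  rw [P275CT.fd_LL, ← ct_dz (MetAt.df a) a.pos, dz_cn (MetAt.pd a)]
  exact (hB (H z, cn H z) (mem_closedBall_zero_iff.2 (max_le_max (hL _ b) d))).trans
    (le_max_right _ _)

theorem nq_sub {k h : Mx n} (hk : k.PosDef) (hh : h.PosDef) (X Y : Mx n) :
    nq k h (X - Y) ≤ 2 * nq k h X + 2 * nq k h Y := by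
  have a := nq_nonneg hk hh (X + Y)
  simp only [nq, ad_add, ad_sub, Matrix.add_mul, Matrix.mul_add, Matrix.sub_mul, Matrix.mul_sub,
    trace_add, trace_sub, add_re, sub_re] at a ⊢
  linarith

theorem nq_br_le {h : Mx n} (hh : h.PosDef) (b : Mx n) {B : ℝ} (hb : nq h h b ≤ B) :
    nq h h (br h b) ≤ 4 * B ^ 2 := by
  have a := nq_sub hh hh (b * ad h h b) (ad h h b * b)
  have c := nq_mul hh hh hh b (ad h h b)
  have d := nq_mul hh hh hh (ad h h b) b
  rw [nq_ad hh hh] at c d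
  have e := nq_nonneg hh hh b
  have := mul_le_mul hb hb e (e.trans hb)
  rw [br]
  nlinarith

theorem cd_br {E : Type} [NormedAddCommGroup E] [NormedSpace ℝ E] {z : E} {N : WithTop ℕ∞}
    {h b : E → Mx n} (hh : ContDiffAt ℝ N h z) (h0 : (h z).det ≠ 0) (hb : ContDiffAt ℝ N b z) :
    ContDiffAt ℝ N (fun x => br (h x) (b x)) z :=
  (cd_mul hb (cd_ad hh h0 hh hb)).sub (cd_mul (cd_ad hh h0 hh hb) hb)

theorem cd_cn {H : ℂ → Mx n} {z : ℂ} (h : MetAt H z) : ContDiffAt ℝ 1 (cn H) z :=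
  cd_mul (cd_inv (h.c2.of_le (by norm_num)) (pd_ne (MetAt.pd h)))
    (cd_dz (by rw [one_add_one_eq_two]; exact h.c2))

end Vale.Agent.P275CP
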